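import Mathlib

/-!
# P181, MD: free columns (transversals with prescribed degrees)

Mathlib only.
-/

set_option autoImplicit false

namespace Vale.Agent.P181.MD.H91

open Finset

/-- a word of length `N` in the letters of `S` with prescribed multiplicities. -/
theorem word {σ : Type*} [DecidableEq σ] (S : Finset σ) (g : σ → ℕ) {N : ℕ}
    (h : ∑ u ∈ S, g u = N) :
    ∃ w : Fin N → σ, (∀ c, w c ∈ S) ∧ ∀ u ∈ S, (univ.filter fun c => w c = u).card = g u := by
  classical
  have hc : Fintype.card (Σ u : S, Fin (g u)) = Fintype.card (Fin N) := by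
    rw [Fintype.card_sigma, Fintype.card_fin]
    simp only [Fintype.card_fin]
    rw [← h]
    exact Finset.sum_coe_sort S g
  let e : Fin N ≃ (Σ u : S, Fin (g u)) := (Fintype.equivOfCardEq hc).symm
  refine ⟨fun c => ((e c).1 : σ), fun c => (e c).1.2, ?_⟩
  intro u hu
  have h1 : (univ.filter fun c => ((e c).1 : σ) = u).card =
      (univ.filter fun z : (Σ u : S, Fin (g u)) => (z.1 : σ) = u).card := by
    apply Finset.card_bij (fun c _ => e c)
    · intro c hc
      simpa using hc
    · intro c _ c' _ hcc
      exact e.injective hcc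
    · intro z hz
      refine ⟨e.symm z, ?_, by simp⟩
      simpa using hz
  rw [h1]
  have h2 : (univ.filter fun z : (Σ u : S, Fin (g u)) => (z.1 : σ) = u) =
      (univ : Finset (Fin (g u))).map ⟨fun j => (⟨⟨u, hu⟩, j⟩ : Σ u : S, Fin (g u)), by
        intro j j' hjj
        simpa using hjj⟩ := by
    ext z
    obtain ⟨⟨v, hv⟩, j⟩ := z
    simp only [mem_filter, mem_univ, true_and, mem_map]
    constructor
    · intro hvu
      subst hvu
      exact ⟨j, rfl⟩
    · rintro ⟨j', hj'⟩
      have := congrArg (fun z : (Σ u : S, Fin (g u)) => (z.1 : σ)) hj'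
      exact this.symm
  rw [h2, card_map, card_univ, Fintype.card_fin]

/-- **Transversal columns with prescribed degrees.**  If every class of `cl` has total degree
`N`, there are `N` transversals with these degrees. -/
theorem free {b m N : ℕ} (cl : Fin b → Fin m) (g : Fin b → ℕ)
    (h : ∀ i, ∑ u ∈ univ.filter (fun u => cl u = i), g u = N) :
    ∃ w : Fin N → Fin m → Fin b, (∀ c i, cl (w c i) = i) ∧
      (∀ c, (univ.image (w c)).card = m) ∧
      ∀ u, (univ.filter fun c => u ∈ univ.image (w c)).card = g u := by
  classical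
  have hw := fun i => word (univ.filter fun u => cl u = i) g (h i)
  choose w hw1 hw2 using hw
  have hcl : ∀ c i, cl (w i c) = i := fun c i => (mem_filter.1 (hw1 i c)).2
  refine ⟨fun c i => w i c, hcl, ?_, ?_⟩
  · intro c
    rw [card_image_of_injective _ fun i i' hii => by
      rw [← hcl c i, ← hcl c i']
      exact congrArg cl hii, card_univ, Fintype.card_fin]
  · intro u
    rw [← hw2 (cl u) u (mem_filter.2 ⟨mem_univ _, rfl⟩)]
    congr 1
    ext c
    simp only [mem_filter, mem_univ, true_and, mem_image]
    constructor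
    · rintro ⟨i, hi⟩
      have : i = cl u := by rw [← hcl c i, hi]
      rw [← this]
      exact hi
    · intro hc
      exact ⟨cl u, hc⟩

end Vale.Agent.P181.MD.H91
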