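import Vale.Agent.P181.MD.Spec
import Vale.Agent.P181.MD.H91.Free

/-!
# P181, MD: [MD-F]
-/

set_option autoImplicit false

namespace Vale.Agent.P181.MD.H91

open Finset
open Vale.Agent.P181.H59 Vale.Agent.P181.TS

/-- **[MD-F]** -/
theorem compStmt : CompStmt := by
  intro b m NF cl g h
  obtain ⟨w, h1, h2, h3⟩ := free cl g h
  refine ⟨fun c => univ.image (w c), h2, ?_, h3⟩
  intro c
  rw [miss, filter_eq_empty_iff]
  intro i _ hi
  exact hi (w c i) (mem_image_of_mem _ (mem_univ _)) (h1 c i)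

end Vale.Agent.P181.MD.H91
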