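import Vale.Agent.P181.TS.H91.Mat

/-!
# P181, MD: the orbit inequality for any configuration over `ℂ[t]` (letter free)
-/

set_option autoImplicit false

namespace Vale.Agent.P181.MD.H91

open Finset Polynomial
open Vale.Agent.P181 Vale.Agent.P181.H280 Vale.Agent.P181.FR Vale.Agent.P181.H188W
open Vale.Agent.P181.T4 Vale.Agent.P181.H463 Vale.Agent.P181.H59 Vale.Agent.P181.H261
open Vale.Agent.P181.TS.H91

/-- the minor of the first `l` coordinates of the points `x (e a)`. -/
noncomputable def mx {b : ℕ} (x : Fin b → ℕ → ℂ[X]) {l : ℕ} (e : Fin l → Fin b) : ℂ[X] :=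
  Matrix.det (Matrix.of fun a s : Fin l => x (e a) s)

/-- a configuration over `ℂ[t]` with a design for every balanced degree function. -/
def XDes (b N : ℕ) (len : Fin N → ℕ) : Prop :=
  ∃ x : Fin b → ℕ → ℂ[X], ∀ gd : Fin b → ℕ, (∀ p q, gd p ≤ gd q + 1) →
    ∑ p, gd p = ∑ c, len c →
    ∃ (A : Fin N → Finset (Fin b)) (ω : ℕ), (∀ c, (A c).card = len c) ∧ (∀ p, dgr A p = gd p) ∧
      ∀ u : (c : Fin N) → Fin (len c) → Fin b, (∀ c, Function.Injective (u c)) →
        (∀ c, univ.image (u c) = A c) →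
        (X ^ ω ∣ ∏ c, mx x (u c)) ∧ (∏ c, mx x (u c)).coeff ω ≠ 0 ∧
        ∀ ρ : Equiv.Perm (Fin b), ρ ≠ 1 → X ^ (ω + 1) ∣ ∏ c, mx x (fun s => ρ (u c s))

theorem dt_mx {b n : ℕ} (x : Fin b → ℕ → ℂ[X]) {l : ℕ} (hl : l ≤ n) (e : Fin l → Fin b) (t : ℂ) :
    dt hl e (fun u i => (x u (i : ℕ)).eval t) = (mx x e).eval t := by
  rw [dt, mx, ← coe_evalRingHom, RingHom.map_det]
  congr 1

/-- **The orbit inequality.** -/
theorem mat {n k b N : ℕ} {len : Fin N → ℕ} {lam η : Fin n → ℕ} (hb : 0 < b)
    (hD : XDes b N len) (hlen : ∀ c, len c ≤ n) (hη : Antitone η)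
    (hcol : ∀ i : Fin n, (univ.filter fun c => (i : ℕ) < len c).card + η i = lam i)
    (hsum : ∑ i, lam i = k * b) :
    gt n b η ≤ ((∑ i, η i) + b - 1).choose (b - 1) * (b.factorial * plethMult b k n lam) := by
  classical
  obtain ⟨x, hst⟩ := hD
  obtain ⟨d, hd, hds⟩ := Mat5.exists_balanced b (∑ i, η i) hb
  -- sizes
  have hlenC : ∀ c, (univ.filter fun i : Fin n => (i : ℕ) < len c).card = len c := by
    intro c
    rw [Fin.card_filter_val_lt, min_eq_right (hlen c)]
  have hsum2 : ∑ c, len c + ∑ i, η i = k * b := by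
    rw [← hsum]
    have h1 : ∑ i, lam i = ∑ i : Fin n, ((univ.filter fun c => (i : ℕ) < len c).card + η i) :=
      sum_congr rfl fun i _ => (hcol i).symm
    rw [h1, sum_add_distrib]
    congr 1
    calc ∑ c, len c = ∑ c, (univ.filter fun i : Fin n => (i : ℕ) < len c).card :=
          sum_congr rfl fun c _ => (hlenC c).symm
      _ = ∑ i : Fin n, (univ.filter fun c => (i : ℕ) < len c).card := by
          simp only [card_filter]
          exact sum_comm
  have hda : ∀ p, d p ≤ k := by
    intro p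
    by_contra h
    push Not at h
    have h1 : ∀ q, k ≤ d q := fun q => by have := hd p q; omega
    have h2 : ∑ q : Fin b, k < ∑ q, d q :=
      sum_lt_sum (fun q _ => h1 q) ⟨p, mem_univ p, h⟩
    rw [sum_const, card_univ, Fintype.card_fin, smul_eq_mul, hds, mul_comm] at h2
    omega
  -- the degree functions
  have hgd1 : ∀ τ : Equiv.Perm (Fin b), ∀ p q, k - d (τ.symm p) ≤ k - d (τ.symm q) + 1 := by
    intro τ p q
    have h1 := hd (τ.symm q) (τ.symm p)
    have h2 := hda (τ.symm p)
    have h3 := hda (τ.symm q)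
    omega
  have hgd2 : ∀ τ : Equiv.Perm (Fin b), ∑ p, (k - d (τ.symm p)) = ∑ c, len c := by
    intro τ
    have h1 : ∑ p, (k - d (τ.symm p)) = ∑ p, (k - d p) :=
      Equiv.sum_comp τ.symm fun p => k - d p
    have h2 : ∑ p, (k - d p) + ∑ p, d p = k * b := by
      rw [← sum_add_distrib]
      have h3 : ∀ p : Fin b, k - d p + d p = k := fun p => Nat.sub_add_cancel (hda p)
      rw [sum_congr rfl fun p _ => h3 p, sum_const, card_univ, Fintype.card_fin, smul_eq_mul,
        mul_comm]
    rw [h1]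
    omega
  have hex := fun τ : Equiv.Perm (Fin b) =>
    hst (fun p => k - d (τ.symm p)) (hgd1 τ) (hgd2 τ)
  choose A ω hA1 hA2 hA3 using hex
  let u : Equiv.Perm (Fin b) → (c : Fin N) → Fin (len c) → Fin b := fun τ c =>
    (A τ c).orderEmbOfFin (hA1 τ c)
  have hu : ∀ τ c, Function.Injective (u τ c) := fun τ c =>
    ((A τ c).orderEmbOfFin (hA1 τ c)).injective
  have huA : ∀ τ c s, u τ c s ∈ A τ c := fun τ c s => orderEmbOfFin_mem _ _ s
  have huI : ∀ τ c, univ.image (u τ c) = A τ c := by
    intro τ c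
    apply Finset.coe_injective
    rw [coe_image, coe_univ, Set.image_univ]
    exact range_orderEmbOfFin _ _
  have hkey : ∀ τ, _ := fun τ => hA3 τ (u τ) (hu τ) (huI τ)
  have hdet : (Matrix.of fun τ σ : Equiv.Perm (Fin b) =>
      ∏ c, mx x (fun s => (σ * τ⁻¹) (u τ c s))).det ≠ 0 := by
    have hid : ∀ τ : Equiv.Perm (Fin b), τ * τ⁻¹ = 1 := fun τ => mul_inv_cancel τ
    refine det_ne (fun τ σ : Equiv.Perm (Fin b) =>
      ∏ c, mx x (fun s => (σ * τ⁻¹) (u τ c s))) ω ?_ ?_ ?_
    · intro τ
      rw [hid]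
      exact (hkey τ).1
    · intro τ
      rw [hid]
      exact (hkey τ).2.1
    · intro τ σ hne
      exact (hkey τ).2.2 _ fun h => hne (mul_inv_eq_one.1 h)
  -- a numerical point
  obtain ⟨t, ht⟩ := exists_eval hdet
  refine gt_le_of_family η hη d hd hds ?_
  intro C ι _ _ len' hlen' hcol' J hJ hli
  refine orbit_prod len hlen len' hlen' ?_ (fun τ c s => τ.symm (u τ c s)) J ?_
    (fun v i => (x v (i : ℕ)).eval t) ?_ hli
  · intro i
    rw [hcol' i, hcol i]
  · intro τ β j
    have h1 : ∀ c, (univ.filter fun i => τ.symm (u τ c i) = j).card =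
        if τ j ∈ A τ c then 1 else 0 := by
      intro c
      have hset : (univ.filter fun i => τ.symm (u τ c i) = j) =
          univ.filter fun i => u τ c i = τ j := by
        ext i
        simp only [mem_filter, mem_univ, true_and]
        rw [Equiv.symm_apply_eq]
      rw [hset]
      split_ifs with h
      · have hr : τ j ∈ Set.range ((A τ c).orderEmbOfFin (hA1 τ c)) := by
          rw [range_orderEmbOfFin]
          exact h
        obtain ⟨i0, hi0⟩ := hr
        rw [card_eq_one]
        refine ⟨i0, ?_⟩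
        ext i
        simp only [mem_filter, mem_univ, true_and, mem_singleton]
        constructor
        · intro hi
          exact hu τ c (hi.trans hi0.symm)
        · intro hi
          rw [hi]
          exact hi0
      · rw [card_eq_zero, filter_eq_empty_iff]
        intro i _ hi
        exact h (hi ▸ huA τ c i)
    rw [sum_congr rfl fun c _ => h1 c, ← card_filter]
    have h2 := hA2 τ (τ j)
    rw [dgr, Equiv.symm_apply_apply] at h2
    rw [h2, hJ β j]
    exact Nat.sub_add_cancel (hda j)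
  · have e : (Matrix.of fun τ σ : Equiv.Perm (Fin b) =>
        ∏ c, dt (hlen c) (fun s => σ (τ.symm (u τ c s)))
          (fun v i => (x v (i : ℕ)).eval t)) =
        (evalRingHom t).mapMatrix (Matrix.of fun τ σ : Equiv.Perm (Fin b) =>
          ∏ c, mx x (fun s => (σ * τ⁻¹) (u τ c s))) := by
      ext τ σ
      rw [Matrix.of_apply, RingHom.mapMatrix_apply, Matrix.map_apply, Matrix.of_apply,
        map_prod]
      exact prod_congr rfl fun c _ => dt_mx x (hlen c) _ t
    rw [e, ← RingHom.map_det]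
    exact ht

end Vale.Agent.P181.MD.H91
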