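import Vale.Agent.P181.MD.Spec
import Vale.Agent.P181.MD.H91.MatX

/-!
# P181, MD: [MD-MAT]
-/

set_option autoImplicit false

namespace Vale.Agent.P181.MD.H91

open Finset Polynomial
open Vale.Agent.P181 Vale.Agent.P181.H280 Vale.Agent.P181.H463 Vale.Agent.P181.H59
open Vale.Agent.P181.TS Vale.Agent.P181.TS.H91

/-- a design of `MD` is a design of points. -/
theorem xdes {b N m : ℕ} (h1 : Ord1) (h2 : Ord2) (h3 : Ord3) (hD : MDes b N m) :
    XDes b N (fun _ : Fin N => m) := by
  classical
  obtain ⟨cl, y, hD⟩ := hD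
  refine ⟨fun u i => if h : i < m then pm cl y u ⟨i, h⟩ else 0, ?_⟩
  intro gd hgd hsum
  rw [sum_const, card_univ, Fintype.card_fin, smul_eq_mul] at hsum
  obtain ⟨A, hA1, hA2, hA3, hA4⟩ := hD gd hgd hsum
  have hmx : ∀ e : Fin m → Fin b,
      mx (fun u i => if h : i < m then pm cl y u ⟨i, h⟩ else 0) e = MD.mn cl y e := by
    intro e
    rw [mx, MD.mn]
    congr 1
    ext a s
    simp [Fin.is_lt]
  refine ⟨A, ∑ c, (miss cl (A c)).card, hA1, hA2, ?_⟩
  intro u hu huA
  have himg : ∀ (ρ : Equiv.Perm (Fin b)) c, univ.image (fun s => ρ (u c s)) = (A c).image ρ := by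
    intro ρ c
    rw [← huA c, image_image]
    rfl
  have hinj : ∀ (ρ : Equiv.Perm (Fin b)) c, Function.Injective fun s => ρ (u c s) :=
    fun ρ c => ρ.injective.comp (hu c)
  refine ⟨?_, ?_, ?_⟩
  · refine prod_dvd univ _ (fun c => (miss cl (A c)).card) fun c _ => ?_
    rw [hmx, ← huA c]
    exact h1 b m cl y (u c) (hu c)
  · refine prod_low univ _ (fun c => (miss cl (A c)).card) (fun c _ => ?_) fun c _ => ?_
    · rw [hmx, ← huA c]
      exact h1 b m cl y (u c) (hu c)
    · rw [hmx]
      have := h3 b m cl y (u c) (hu c)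
      rw [huA c] at this
      exact this (hA3 c)
  · intro ρ hρ
    rcases hA4 ρ hρ with h | ⟨h, c0, hc0⟩
    · refine dvd_trans (pow_dvd_pow X h) ?_
      refine prod_dvd univ _ (fun c => (miss cl ((A c).image ρ)).card) fun c _ => ?_
      rw [hmx, ← himg ρ c]
      exact h1 b m cl y _ (hinj ρ c)
    · refine dvd_trans (pow_dvd_pow X (?_ : _ ≤ ∑ c, ((miss cl ((A c).image ρ)).card +
        if c = c0 then 1 else 0))) ?_
      · rw [sum_add_distrib, sum_ite_eq' univ c0, if_pos (mem_univ c0)]
        exact Nat.succ_le_succ h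
      · refine prod_dvd univ _ (fun c => (miss cl ((A c).image ρ)).card +
          if c = c0 then 1 else 0) fun c _ => ?_
        rw [hmx]
        by_cases hc : c = c0
        · subst hc
          rw [if_pos rfl, ← himg ρ c]
          refine h2 b m cl y _ (hinj ρ c) ?_
          rw [himg ρ c]
          exact hc0
        · rw [if_neg hc, add_zero, ← himg ρ c]
          exact h1 b m cl y _ (hinj ρ c)

/-- **[MD-MAT]** -/
theorem matMStep : MatMStep := by
  intro h1 h2 h3 n k b N m lam η hb hD hm hη hcol hsum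
  refine mat hb (xdes h1 h2 h3 hD) (fun _ => hm) hη ?_ hsum
  intro i
  rw [← hcol i]
  congr 1
  by_cases h : (i : ℕ) < m
  · simp [h]
  · simp [h]

end Vale.Agent.P181.MD.H91
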