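import Mathlib

/-!
# P181, MD (d): a rigid pair of colourings with deterministic tests

`E` joins the letter of index `n` of a colour class with the letter of index `n - 1` (modulo the
size) of every other class: this graph is uniquely `P`-colourable.  Rows and columns of a `P × P`
grid without a set `D` of cells near the diagonal.
-/

set_option autoImplicit false

namespace Vale.Agent.P181.MD.H91

open Finset

/-- the class of a colour -/
def fib {α : Type} [Fintype α] {P : ℕ} (f : α → Fin P) (c : Fin P) : Finset α :=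
  univ.filter fun v => f v = c

theorem mem_fib {α : Type} [Fintype α] {P : ℕ} {f : α → Fin P} {c : Fin P} {u : α} :
    u ∈ fib f c ↔ f u = c := by simp [fib]

/-- numbering inside the classes. -/
theorem exists_idx {α : Type} [Fintype α] {P : ℕ} (f : α → Fin P) : ∃ idx : α → ℕ,
    (∀ u, idx u < (fib f (f u)).card) ∧ (∀ u v, f u = f v → idx u = idx v → u = v) ∧
    ∀ c n, n < (fib f c).card → ∃ u, f u = c ∧ idx u = n := by
  classical
  let e : ∀ c : Fin P, {v // v ∈ fib f c} ≃ Fin (fib f c).card := fun c => (fib f c).equivFin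
  have hcast : ∀ (v : α) (c : Fin P) (h : f v = c),
      ((e (f v) ⟨v, mem_fib.2 rfl⟩ : Fin _) : ℕ) = (e c ⟨v, mem_fib.2 h⟩ : Fin _) := by
    intro v c h
    subst h
    rfl
  refine ⟨fun u => (e (f u) ⟨u, mem_fib.2 rfl⟩ : Fin _), fun u => Fin.is_lt _, ?_, ?_⟩
  · intro u v h h2
    simp only at h2
    rw [hcast u (f v) h] at h2
    have h3 := (e (f v)).injective (Fin.ext h2)
    exact congrArg Subtype.val h3
  · intro c n hn
    obtain ⟨⟨v, hv⟩, hv2⟩ : ∃ x, e c x = ⟨n, hn⟩ := (e c).surjective _
    refine ⟨v, mem_fib.1 hv, ?_⟩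
    simp only
    rw [hcast v c (mem_fib.1 hv), hv2]

/-- the test graph. -/
def EE {α : Type} [Fintype α] [DecidableEq α] {P : ℕ} (f : α → Fin P) (idx : α → ℕ) :
    Finset (α × α) :=
  univ.filter fun x => f x.1 ≠ f x.2 ∧ idx x.2 = (idx x.1 - 1) % (fib f (f x.2)).card

/-- **The test graph is uniquely `P`-colourable.** -/
theorem unique_col {α : Type} [Fintype α] [DecidableEq α] {P : ℕ} (f : α → Fin P) (idx : α → ℕ)
    (h2 : ∀ u v, f u = f v → idx u = idx v → u = v)
    (h3 : ∀ c n, n < (fib f c).card → ∃ u, f u = c ∧ idx u = n)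
    (hne : ∀ c, 0 < (fib f c).card) (F : α → Fin P)
    (hF : ∀ x ∈ EE f idx, F x.1 ≠ F x.2) : ∃ σ : Equiv.Perm (Fin P), ∀ u, F u = σ (f u) := by
  have hg : ∀ c, ∃ u, f u = c ∧ idx u = 0 := fun c => h3 c 0 (hne c)
  choose g hg1 hg2 using hg
  have hinj : Function.Injective fun c => F (g c) := by
    intro c c' h
    by_contra hcc
    refine hF (g c, g c') ?_ h
    rw [EE, mem_filter]
    refine ⟨mem_univ _, ?_, ?_⟩
    · simp only [hg1]
      exact hcc
    · simp only [hg2, Nat.zero_sub, Nat.zero_mod]
  have hbij : Function.Bijective fun c => F (g c) := Finite.injective_iff_bijective.1 hinj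
  refine ⟨Equiv.ofBijective _ hbij, ?_⟩
  have key : ∀ n u, idx u = n → F u = F (g (f u)) := by
    intro n
    induction n using Nat.strong_induction_on with
    | _ n ih =>
      intro u hu
      by_cases hn : n = 0
      · have : u = g (f u) := h2 _ _ (hg1 _).symm (by rw [hg2, hu, hn])
        rw [← this]
      · by_contra hcon
        obtain ⟨c, hc⟩ := hbij.2 (F u)
        simp only at hc
        have hcu : c ≠ f u := by
          rintro rfl
          exact hcon hc.symm
        obtain ⟨v, hv1, hv2⟩ := h3 c ((n - 1) % (fib f c).card) (Nat.mod_lt _ (hne c))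
        have hlt : (n - 1) % (fib f c).card < n :=
          lt_of_le_of_lt (Nat.mod_le _ _) (by omega)
        have h5 := ih _ hlt v hv2
        refine hF (u, v) ?_ ?_
        · rw [EE, mem_filter]
          refine ⟨mem_univ _, ?_, ?_⟩
          · simp only [hv1]
            exact fun h => hcu h.symm
          · simp only [hv1, hv2, hu]
        · simp only
          rw [h5, hv1, hc]
  intro u
  exact key _ u rfl

/-- degrees of the test graph. -/
theorem deg_le {α : Type} [Fintype α] [DecidableEq α] {P : ℕ} (f : α → Fin P) (idx : α → ℕ)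
    (h1 : ∀ u, idx u < (fib f (f u)).card)
    (h2 : ∀ u v, f u = f v → idx u = idx v → u = v)
    (hne : ∀ c c', (fib f c).card ≤ 2 * (fib f c').card) (u : α) :
    ((EE f idx).filter fun x => x.1 = u ∨ x.2 = u).card ≤ 4 * P := by
  have hn : 0 < (fib f (f u)).card := lt_of_le_of_lt (Nat.zero_le _) (h1 u)
  have hA : ((EE f idx).filter fun x => x.1 = u).card ≤ P := by
    calc ((EE f idx).filter fun x => x.1 = u).card ≤ (univ : Finset (Fin P)).card := by
          refine card_le_card_of_injOn (fun x => f x.2) (fun _ _ => mem_univ _) ?_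
          intro x hx y hy hxy
          simp only [coe_filter, EE, mem_filter, mem_univ, true_and, Set.mem_setOf_eq] at hx hy
          simp only at hxy
          refine Prod.ext (hx.2.trans hy.2.symm) (h2 _ _ hxy ?_)
          rw [hx.1.2, hy.1.2, hx.2, hy.2, hxy]
      _ = P := by simp
  have hB : ((EE f idx).filter fun x => x.2 = u).card ≤ 3 * P := by
    calc ((EE f idx).filter fun x => x.2 = u).card ≤
          ((univ : Finset (Fin P)) ×ˢ (range 3)).card := by
          refine card_le_card_of_injOn (fun x => (f x.1,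
            if idx x.1 = 0 then 0 else 1 + (idx x.1 - 1) / (fib f (f u)).card)) ?_ ?_
          · intro x hx
            simp only [coe_filter, EE, mem_filter, mem_univ, true_and, Set.mem_setOf_eq] at hx
            simp only [coe_product, coe_univ, coe_range, Set.mem_prod, Set.mem_univ, true_and,
              Set.mem_Iio]
            split_ifs with h0
            · omega
            · have h5 := h1 x.1
              have h6 := hne (f x.1) (f u)
              have h7 : (idx x.1 - 1) / (fib f (f u)).card < 2 := by
                rw [Nat.div_lt_iff_lt_mul hn]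
                omega
              omega
          · intro x hx y hy hxy
            simp only [coe_filter, EE, mem_filter, mem_univ, true_and, Set.mem_setOf_eq] at hx hy
            simp only [Prod.mk.injEq] at hxy
            have hx2 := hx.1.2
            have hy2 := hy.1.2
            rw [hx.2] at hx2
            rw [hy.2] at hy2
            refine Prod.ext (h2 _ _ hxy.1 ?_) (hx.2.trans hy.2.symm)
            have h8 := hxy.2
            have h9 := Nat.div_add_mod (idx x.1 - 1) (fib f (f u)).card
            have h10 := Nat.div_add_mod (idx y.1 - 1) (fib f (f u)).card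
            rw [← hx2] at h9
            rw [← hy2] at h10
            by_cases hx0 : idx x.1 = 0
            · by_cases hy0 : idx y.1 = 0
              · rw [hx0, hy0]
              · rw [if_pos hx0, if_neg hy0] at h8
                exact absurd h8.symm (by rw [Nat.add_comm]; exact Nat.succ_ne_zero _)
            · by_cases hy0 : idx y.1 = 0
              · rw [if_neg hx0, if_pos hy0] at h8
                exact absurd h8 (by rw [Nat.add_comm]; exact Nat.succ_ne_zero _)
              · rw [if_neg hx0, if_neg hy0] at h8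
                have h11 : (idx x.1 - 1) / (fib f (f u)).card =
                    (idx y.1 - 1) / (fib f (f u)).card := by omega
                rw [h11] at h9
                omega
      _ = 3 * P := by rw [card_product, card_univ, Fintype.card_fin, card_range, mul_comm]
  have hU : (EE f idx).filter (fun x => x.1 = u ∨ x.2 = u) ⊆
      (EE f idx).filter (fun x => x.1 = u) ∪ (EE f idx).filter (fun x => x.2 = u) := by
    intro x hx
    rw [mem_filter] at hx
    rw [mem_union, mem_filter, mem_filter]
    rcases hx.2 with h | h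
    · exact Or.inl ⟨hx.1, h⟩
    · exact Or.inr ⟨hx.1, h⟩
  have := (card_le_card hU).trans (card_union_le _ _)
  omega

/-- rigidity of the cells near the diagonal. -/
theorem rigid_D {P : ℕ} (D : Finset (Fin P × Fin P)) (hD1 : ∀ x ∈ D, x.1 ≤ x.2)
    (hD2 : ∀ p, (p, p) ∈ D) (hD3 : ∀ p q : Fin P, (q : ℕ) = p + 1 → (p, q) ∈ D)
    (σ τ : Equiv.Perm (Fin P)) (hστ : ∀ p q, (p, q) ∈ D ↔ (σ p, τ q) ∈ D) :
    ∀ n : ℕ, ∀ i : Fin P, (i : ℕ) = n → σ i = i ∧ τ i = i := by
  intro n
  induction n using Nat.strong_induction_on with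
  | _ n ih =>
    intro i hi
    have hσ : ∀ p : Fin P, i ≤ σ p → i ≤ p := by
      intro p hp
      by_contra h
      have h' : (p : ℕ) < n := by
        rw [← hi]
        exact not_le.1 h
      rw [(ih p h' p rfl).1] at hp
      exact h hp
    have hge : ∀ (π : Equiv.Perm (Fin P)), (∀ j : Fin P, (j : ℕ) < n → π j = j) → i ≤ π i := by
      intro π hπ
      by_contra h
      have h' : ((π i : Fin P) : ℕ) < n := by
        rw [← hi]
        exact not_le.1 h
      have h2 := hπ _ h'
      have h3 : π i = i := π.injective h2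
      rw [h3] at h
      exact h le_rfl
    have hτi : τ i = i := by
      have h1 : i ≤ τ i := hge τ fun j hj => (ih j hj j rfl).2
      by_contra hne
      have h2 : (i : ℕ) < (τ i : Fin P) := lt_of_le_of_ne h1 fun h => hne (Fin.ext h.symm)
      have hlt : ((τ i : Fin P) : ℕ) - 1 < P := by
        have := (τ i).2
        omega
      have hc1 : ((τ i, τ i) : Fin P × Fin P) ∈ D := hD2 _
      have hc2 : (((⟨(τ i : ℕ) - 1, hlt⟩ : Fin P), τ i) : Fin P × Fin P) ∈ D :=
        hD3 _ _ (by simp only; omega)
      obtain ⟨p1, hp1⟩ := σ.surjective (τ i)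
      obtain ⟨p2, hp2⟩ := σ.surjective (⟨(τ i : ℕ) - 1, hlt⟩ : Fin P)
      rw [← hp2, ← hστ] at hc2
      have hc1' : ((σ p1, τ i) : Fin P × Fin P) ∈ D := by rw [hp1]; exact hc1
      rw [← hστ] at hc1'
      have a1 : p1 ≤ i := hD1 _ hc1'
      have a2 : p2 ≤ i := hD1 _ hc2
      have b1 : i ≤ p1 := hσ _ (by rw [hp1]; exact h1)
      have b2 : i ≤ p2 := hσ _ (by
        rw [hp2]
        show (i : ℕ) ≤ (τ i : ℕ) - 1
        omega)
      have e1 : p1 = i := le_antisymm a1 b1
      have e2 : p2 = i := le_antisymm a2 b2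
      rw [e1] at hp1
      rw [e2, hp1] at hp2
      have := congrArg Fin.val hp2
      simp only at this
      omega
    refine ⟨?_, hτi⟩
    have h1 : i ≤ σ i := hge σ fun j hj => (ih j hj j rfl).1
    have h2 := (hστ i i).1 (hD2 i)
    rw [hτi] at h2
    exact le_antisymm (hD1 _ h2) h1

/-- the missing cells. -/
theorem exists_D {s P : ℕ} (hP1 : (P - 2) ^ 2 < s) (hP2 : s ≤ (P - 1) ^ 2) (hP : 20 ≤ P) :
    ∃ D : Finset (Fin P × Fin P), D.card + s = P ^ 2 ∧ (∀ x ∈ D, x.1 ≤ x.2) ∧
      (∀ x ∈ D, (x.2 : ℕ) ≤ x.1 + 4) ∧ (∀ p, (p, p) ∈ D) ∧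
      ∀ p q : Fin P, (q : ℕ) = p + 1 → (p, q) ∈ D := by
  classical
  obtain ⟨t, rfl⟩ : ∃ t, P = t + 2 := ⟨P - 2, by omega⟩
  have hP1' : t ^ 2 < s := by simpa using hP1
  have hP2' : s ≤ (t + 1) ^ 2 := by simpa using hP2
  let D0 : Finset (Fin (t + 2) × Fin (t + 2)) :=
    univ.filter fun x => (x.2 : ℕ) = x.1 ∨ (x.2 : ℕ) = x.1 + 1
  let D1 : Finset (Fin (t + 2) × Fin (t + 2)) :=
    univ.filter fun x => (x.1 : ℕ) ≤ x.2 ∧ (x.2 : ℕ) ≤ x.1 + 4
  have h01 : D0 ⊆ D1 := by
    intro x hx
    simp only [D0, D1, mem_filter, mem_univ, true_and] at hx ⊢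
    omega
  have hc0 : D0.card ≤ 2 * (t + 2) - 1 := by
    calc D0.card ≤ (range (2 * (t + 2) - 1)).card := by
          refine card_le_card_of_injOn (fun x => (x.1 : ℕ) + x.2) ?_ ?_
          · intro x hx
            simp only [D0, coe_filter, mem_univ, true_and, Set.mem_setOf_eq] at hx
            simp only [coe_range, Set.mem_Iio]
            have := x.1.2
            have := x.2.2
            omega
          · intro x hx y hy hxy
            simp only [D0, coe_filter, mem_univ, true_and, Set.mem_setOf_eq] at hx hy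
            simp only at hxy
            have e1 : (x.1 : ℕ) = y.1 := by omega
            have e2 : (x.2 : ℕ) = y.2 := by omega
            exact Prod.ext (Fin.ext e1) (Fin.ext e2)
      _ = _ := card_range _
  have hc1 : 5 * (t - 2) ≤ D1.card := by
    calc 5 * (t - 2) = ((univ : Finset (Fin (t - 2))) ×ˢ (univ : Finset (Fin 5))).card := by
          rw [card_product, card_univ, card_univ, Fintype.card_fin, Fintype.card_fin, mul_comm]
      _ ≤ D1.card := by
          refine card_le_card_of_injOn (fun x => ((⟨x.1, by have := x.1.2; omega⟩ : Fin (t + 2)),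
            (⟨x.1 + x.2, by have := x.1.2; have := x.2.2; omega⟩ : Fin (t + 2)))) ?_ ?_
          · intro x _
            simp only [D1, coe_filter, mem_univ, true_and, Set.mem_setOf_eq]
            have := x.2.2
            omega
          · intro x _ y _ hxy
            simp only [Prod.mk.injEq, Fin.mk.injEq] at hxy
            exact Prod.ext (Fin.ext hxy.1) (Fin.ext (by omega))
  have hs1 : s + (2 * (t + 2) - 1) ≤ (t + 2) ^ 2 := by
    have : (t + 2) ^ 2 = (t + 1) ^ 2 + (2 * t + 3) := by ring
    omega
  have hs2 : (t + 2) ^ 2 ≤ s + 5 * (t - 2) := by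
    have h3 : (t + 2) ^ 2 = t ^ 2 + (4 * t + 4) := by ring
    omega
  obtain ⟨D, hD0, hD1, hDc⟩ := exists_subsuperset_card_eq h01
    (show D0.card ≤ (t + 2) ^ 2 - s by omega) (show (t + 2) ^ 2 - s ≤ D1.card by omega)
  refine ⟨D, by rw [hDc]; omega, ?_, ?_, ?_, ?_⟩
  · intro x hx
    have := hD1 hx
    simp only [D1, mem_filter, mem_univ, true_and] at this
    exact this.1
  · intro x hx
    have := hD1 hx
    simp only [D1, mem_filter, mem_univ, true_and] at this
    exact this.2
  · intro p
    apply hD0
    simp [D0]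
  · intro p q h
    apply hD0
    simp only [D0, mem_filter, mem_univ, true_and]
    exact Or.inr h

/-- **[MD-TEST]** -/
theorem testsF (s : ℕ) (hs : 400 ≤ s) :
    ∃ (P : ℕ) (f : Fin 2 → Fin s → Fin P) (E : Fin 2 → Finset (Fin s × Fin s)),
      P ^ 2 ≤ 4 * s ∧ (∀ κ c, (fib (f κ) c).card ≤ P) ∧ (∀ κ, ∀ x ∈ E κ, f κ x.1 ≠ f κ x.2) ∧
      (∀ κ u, ((E κ).filter fun x => x.1 = u ∨ x.2 = u).card ≤ 4 * P) ∧
      ∀ ρ : Equiv.Perm (Fin s), (∀ κ, ∀ x ∈ E κ, f κ (ρ x.1) ≠ f κ (ρ x.2)) → ρ = 1 := by
  classical
  obtain ⟨P, hP1, hP2, hP⟩ : ∃ P, (P - 2) ^ 2 < s ∧ s ≤ (P - 1) ^ 2 ∧ 20 ≤ P := by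
    refine ⟨Nat.sqrt (s - 1) + 2, ?_, ?_, ?_⟩
    · have := Nat.sqrt_le' (s - 1)
      simp only [Nat.add_sub_cancel]
      omega
    · have := Nat.lt_succ_sqrt' (s - 1)
      have h2 : Nat.sqrt (s - 1) + 2 - 1 = Nat.sqrt (s - 1) + 1 := by omega
      rw [h2]
      simp only [Nat.succ_eq_add_one] at this
      omega
    · have : 18 ≤ Nat.sqrt (s - 1) := by
        rw [Nat.le_sqrt']
        omega
      omega
  obtain ⟨D, hDc, hD1, hD4, hD2, hD3⟩ := exists_D hP1 hP2 hP
  have hcard : Fintype.card {x : Fin P × Fin P // x ∉ D} = s := by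
    have h1 : Fintype.card {x : Fin P × Fin P // x ∉ D} =
        Fintype.card (Fin P × Fin P) - Fintype.card {x : Fin P × Fin P // x ∈ D} :=
      Fintype.card_subtype_compl _
    rw [h1, Fintype.card_prod, Fintype.card_fin, Fintype.card_coe]
    have : P * P = P ^ 2 := (sq P).symm
    omega
  let e : Fin s ≃ {x : Fin P × Fin P // x ∉ D} := (Fintype.equivFinOfCardEq hcard).symm
  let f : Fin 2 → Fin s → Fin P := fun κ u => if κ = 0 then (e u).1.1 else (e u).1.2
  have hf0 : ∀ u, f 0 u = (e u).1.1 := fun u => by simp [f]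
  have hf1 : ∀ u, f 1 u = (e u).1.2 := fun u => by simp [f]
  -- sizes of the classes
  have hup : ∀ κ c, (fib (f κ) c).card ≤ P := by
    intro κ c
    calc (fib (f κ) c).card ≤ (univ : Finset (Fin P)).card := by
          refine card_le_card_of_injOn (fun u => f (1 - κ) u) (fun _ _ => mem_univ _) ?_
          intro u hu v hv huv
          rw [mem_coe, mem_fib] at hu hv
          simp only at huv
          apply e.injective
          apply Subtype.ext
          fin_cases κ
          · simp only [Fin.zero_eta, Fin.isValue, sub_zero] at hu hv huv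
            rw [hf0] at hu hv
            rw [hf1, hf1] at huv
            exact Prod.ext (hu.trans hv.symm) huv
          · simp only [Fin.mk_one, Fin.isValue, sub_self] at hu hv huv
            rw [hf1] at hu hv
            rw [hf0, hf0] at huv
            exact Prod.ext huv (hu.trans hv.symm)
      _ = P := by simp
  have hlow : ∀ κ c, P ≤ (fib (f κ) c).card + 5 := by
    intro κ c
    fin_cases κ
    · have h1 : (univ.filter fun q : Fin P => (c, q) ∉ D) ⊆
          (fib (f 0) c).image (fun u => f 1 u) := by
        intro q hq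
        rw [mem_filter] at hq
        rw [mem_image]
        refine ⟨e.symm ⟨(c, q), hq.2⟩, ?_, ?_⟩
        · rw [mem_fib, hf0, Equiv.apply_symm_apply]
        · rw [hf1, Equiv.apply_symm_apply]
      have h2 := (card_le_card h1).trans card_image_le
      have h3 : (univ.filter fun q : Fin P => (c, q) ∈ D).card ≤ 5 := by
        calc _ ≤ (range 5).card := by
              refine card_le_card_of_injOn (fun q => (q : ℕ) - c) ?_ ?_
              · intro q hq
                simp only [coe_filter, mem_univ, true_and, Set.mem_setOf_eq] at hq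
                have a1 := hD4 _ hq
                simp only at a1
                simp only [coe_range, Set.mem_Iio]
                omega
              · intro q hq q' hq' h
                simp only [coe_filter, mem_univ, true_and, Set.mem_setOf_eq] at hq hq'
                have a1 : (c : ℕ) ≤ q := hD1 _ hq
                have a2 : (c : ℕ) ≤ q' := hD1 _ hq'
                simp only at h
                exact Fin.ext (by omega)
          _ = 5 := card_range _
      have h4 := card_filter_add_card_filter_not (s := (univ : Finset (Fin P)))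
        (fun q : Fin P => (c, q) ∈ D)
      rw [card_univ, Fintype.card_fin] at h4
      show P ≤ (fib (f 0) c).card + 5
      omega
    · have h1 : (univ.filter fun q : Fin P => (q, c) ∉ D) ⊆
          (fib (f 1) c).image (fun u => f 0 u) := by
        intro q hq
        rw [mem_filter] at hq
        rw [mem_image]
        refine ⟨e.symm ⟨(q, c), hq.2⟩, ?_, ?_⟩
        · rw [mem_fib, hf1, Equiv.apply_symm_apply]
        · rw [hf0, Equiv.apply_symm_apply]
      have h2 := (card_le_card h1).trans card_image_le
      have h3 : (univ.filter fun q : Fin P => (q, c) ∈ D).card ≤ 5 := by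
        calc _ ≤ (range 5).card := by
              refine card_le_card_of_injOn (fun q => (c : ℕ) - q) ?_ ?_
              · intro q hq
                simp only [coe_filter, mem_univ, true_and, Set.mem_setOf_eq] at hq
                have a1 := hD4 _ hq
                simp only at a1
                simp only [coe_range, Set.mem_Iio]
                omega
              · intro q hq q' hq' h
                simp only [coe_filter, mem_univ, true_and, Set.mem_setOf_eq] at hq hq'
                have a1 : (q : ℕ) ≤ c := hD1 _ hq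
                have a2 : (q' : ℕ) ≤ c := hD1 _ hq'
                simp only at h
                exact Fin.ext (by omega)
          _ = 5 := card_range _
      have h4 := card_filter_add_card_filter_not (s := (univ : Finset (Fin P)))
        (fun q : Fin P => (q, c) ∈ D)
      rw [card_univ, Fintype.card_fin] at h4
      show P ≤ (fib (f 1) c).card + 5
      omega
  choose idx hi1 hi2 hi3 using fun κ => exists_idx (f κ)
  refine ⟨P, f, fun κ => EE (f κ) (idx κ), ?_, hup, ?_, ?_, ?_⟩
  · have h1 : P ≤ 2 * (P - 2) := by omega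
    calc P ^ 2 ≤ (2 * (P - 2)) ^ 2 := Nat.pow_le_pow_left h1 2
      _ = 4 * (P - 2) ^ 2 := by ring
      _ ≤ 4 * s := by omega
  · intro κ x hx
    have hx' : x ∈ EE (f κ) (idx κ) := hx
    rw [EE, mem_filter] at hx'
    exact hx'.2.1
  · intro κ u
    refine deg_le (f κ) (idx κ) (hi1 κ) (hi2 κ) (fun c c' => ?_) u
    have := hup κ c
    have := hlow κ c'
    omega
  · intro ρ hρ
    have hex : ∀ κ, ∃ σ : Equiv.Perm (Fin P), ∀ u, f κ (ρ u) = σ (f κ u) := fun κ =>
      unique_col (f κ) (idx κ) (hi2 κ) (hi3 κ) (fun c => by have := hlow κ c; omega)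
        (fun u => f κ (ρ u)) (hρ κ)
    obtain ⟨σ, hσ⟩ := hex 0
    obtain ⟨τ, hτ⟩ := hex 1
    simp only [hf0] at hσ
    simp only [hf1] at hτ
    -- the cells outside `D` are preserved
    have hC : ∀ x : Fin P × Fin P, x ∉ D → (σ x.1, τ x.2) ∉ D := by
      intro x hx
      have h1 := hσ (e.symm ⟨x, hx⟩)
      have h2 := hτ (e.symm ⟨x, hx⟩)
      rw [Equiv.apply_symm_apply] at h1 h2
      simp only at h1 h2
      rw [← h1, ← h2]
      exact (e (ρ (e.symm ⟨x, hx⟩))).2
    have hmaps : ∀ x : Fin P × Fin P, x ∉ D ↔ (σ x.1, τ x.2) ∉ D := by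
      let S : Finset (Fin P × Fin P) := univ.filter fun x => x ∉ D
      have h1 : S.image (fun x => (σ x.1, τ x.2)) ⊆ S := by
        intro y hy
        rw [mem_image] at hy
        obtain ⟨x, hx, rfl⟩ := hy
        simp only [S, mem_filter, mem_univ, true_and] at hx ⊢
        exact hC x hx
      have hinj : Function.Injective fun x : Fin P × Fin P => (σ x.1, τ x.2) := by
        intro x y h
        simp only [Prod.mk.injEq, EmbeddingLike.apply_eq_iff_eq] at h
        exact Prod.ext h.1 h.2
      have h2 : S.image (fun x => (σ x.1, τ x.2)) = S :=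
        eq_of_subset_of_card_le h1 (by rw [card_image_of_injective _ hinj])
      intro x
      refine ⟨hC x, fun h => ?_⟩
      have h3 : (σ x.1, τ x.2) ∈ S := by
        simp only [S, mem_filter, mem_univ, true_and]
        exact h
      rw [← h2, mem_image] at h3
      obtain ⟨x', hx', he⟩ := h3
      have := hinj he
      subst this
      simpa [S] using hx'
    have hstab := rigid_D D hD1 hD2 hD3 σ τ (fun p q => not_iff_not.1 (hmaps (p, q)))
    ext u
    have h1 := hσ u
    have h2 := hτ u
    rw [(hstab _ _ rfl).1] at h1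
    rw [(hstab _ _ rfl).2] at h2
    have h3 : e (ρ u) = e u := Subtype.ext (Prod.ext h1 h2)
    rw [e.injective h3]
    rfl

/-- **[MD-TEST]** without the sizes of the fibres -/
theorem tests (s : ℕ) (hs : 400 ≤ s) :
    ∃ (P : ℕ) (f : Fin 2 → Fin s → Fin P) (E : Fin 2 → Finset (Fin s × Fin s)),
      P ^ 2 ≤ 4 * s ∧ (∀ κ, ∀ x ∈ E κ, f κ x.1 ≠ f κ x.2) ∧
      (∀ κ u, ((E κ).filter fun x => x.1 = u ∨ x.2 = u).card ≤ 4 * P) ∧
      ∀ ρ : Equiv.Perm (Fin s), (∀ κ, ∀ x ∈ E κ, f κ (ρ x.1) ≠ f κ (ρ x.2)) → ρ = 1 := by
  obtain ⟨P, f, E, h1, _, h3, h4, h5⟩ := testsF s hs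
  exact ⟨P, f, E, h1, h3, h4, h5⟩

end Vale.Agent.P181.MD.H91
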