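import Vale.Agent.P181.MD.Spec
import Vale.Agent.P181.MD.H91.Tests

/-!
# P181, MD: [MD-SYS] (second copy)
-/

set_option autoImplicit false

namespace Vale.Agent.P181.MD.H91

open Finset
open Vale.Agent.P181.TS

/-- the tests on a finite set of letters. -/
theorem testsOn {b : ℕ} (S : Finset (Fin b)) (P : ℕ) (hs : 400 ≤ S.card)
    (hP : ∀ Q : ℕ, Q ^ 2 ≤ 4 * S.card → Q ≤ P) :
    ∃ (f : Fin 2 → Fin b → ℕ) (E : Fin 2 → Finset (Fin b × Fin b)),
      (∀ κ, ∀ x ∈ E κ, x.1 ∈ S ∧ x.2 ∈ S ∧ f κ x.1 ≠ f κ x.2) ∧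
      (∀ κ u, ((E κ).filter fun x => x.1 = u ∨ x.2 = u).card ≤ 4 * P) ∧
      (∀ κ, ∀ u ∈ S, (S.filter fun v => f κ v = f κ u).card ≤ P) ∧
      ∀ ρ : Equiv.Perm (Fin b), (∀ u, ρ u ∈ S ↔ u ∈ S) →
        (∀ κ, ∀ x ∈ E κ, f κ (ρ x.1) ≠ f κ (ρ x.2)) → ∀ u ∈ S, ρ u = u := by
  classical
  obtain ⟨Q, f, E, h1, h2, h3, h4, h5⟩ := testsF S.card hs
  have hQ := hP Q h1
  let ε : S ≃ Fin S.card := S.equivFin
  let F : Fin 2 → Fin b → ℕ := fun κ u => if h : u ∈ S then (f κ (ε ⟨u, h⟩) : ℕ) else 0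
  have hF : ∀ κ (z : S), F κ z = (f κ (ε z) : ℕ) := by
    intro κ z
    simp only [F, dif_pos z.2]
  have hF' : ∀ κ (a : Fin S.card), F κ (ε.symm a : Fin b) = (f κ a : ℕ) := by
    intro κ a
    rw [hF, Equiv.apply_symm_apply]
  let j : Fin S.card × Fin S.card ↪ Fin b × Fin b :=
    ⟨fun x => ((ε.symm x.1 : Fin b), (ε.symm x.2 : Fin b)), by
      rintro ⟨a, a'⟩ ⟨c, c'⟩ h
      simp only [Prod.mk.injEq] at h
      exact Prod.ext (ε.symm.injective (Subtype.ext h.1)) (ε.symm.injective (Subtype.ext h.2))⟩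
  have hj1 : ∀ x, (j x).1 = (ε.symm x.1 : Fin b) := fun x => rfl
  have hj2 : ∀ x, (j x).2 = (ε.symm x.2 : Fin b) := fun x => rfl
  refine ⟨F, fun κ => (E κ).map j, ?_, ?_, ?_, ?_⟩
  · intro κ x hx
    obtain ⟨z, hz, rfl⟩ := mem_map.1 hx
    refine ⟨?_, ?_, ?_⟩
    · rw [hj1]
      exact (ε.symm z.1).2
    · rw [hj2]
      exact (ε.symm z.2).2
    · rw [hj1, hj2, hF', hF']
      intro h
      exact h3 κ z hz (Fin.ext h)
  · intro κ u
    by_cases hu : u ∈ S
    · refine le_trans ?_ ((h4 κ (ε ⟨u, hu⟩)).trans (Nat.mul_le_mul_left 4 hQ))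
      rw [filter_map, card_map]
      refine card_le_card ?_
      intro x hx
      rw [mem_filter] at hx ⊢
      refine ⟨hx.1, ?_⟩
      have h := hx.2
      simp only [Function.comp_apply, hj1, hj2] at h
      rcases h with h | h
      · left
        exact (Equiv.symm_apply_eq ε).1 (Subtype.ext h)
      · right
        exact (Equiv.symm_apply_eq ε).1 (Subtype.ext h)
    · have : ((E κ).map j).filter (fun x => x.1 = u ∨ x.2 = u) = ∅ := by
        rw [filter_eq_empty_iff]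
        intro x hx h
        obtain ⟨z, hz, rfl⟩ := mem_map.1 hx
        rcases h with h | h
        · exact hu (h ▸ (ε.symm z.1).2)
        · exact hu (h ▸ (ε.symm z.2).2)
      rw [this, card_empty]
      exact Nat.zero_le _
  · intro κ u hu
    refine le_trans ?_ ((h2 κ (f κ (ε ⟨u, hu⟩))).trans hQ)
    refine card_le_card_of_injOn (fun v => if h : v ∈ S then ε ⟨v, h⟩ else ε ⟨u, hu⟩) ?_ ?_
    · intro v hv
      rw [mem_coe, mem_filter] at hv
      rw [mem_coe, mem_fib]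
      simp only [dif_pos hv.1]
      have h := hv.2
      simp only [F, dif_pos hv.1, dif_pos hu] at h
      exact Fin.ext h
    · intro v hv v' hv' h
      rw [mem_coe, mem_filter] at hv hv'
      simp only [dif_pos hv.1, dif_pos hv'.1] at h
      exact congrArg Subtype.val (ε.injective h)
  · intro ρ hρ hE u hu
    let σ : Equiv.Perm (Fin S.card) := ε.permCongr (ρ.subtypePerm hρ)
    have hσ : ∀ a, σ a = ε (ρ.subtypePerm hρ (ε.symm a)) := fun a => rfl
    have hfσ : ∀ κ a, (f κ (σ a) : ℕ) = F κ (ρ (ε.symm a : Fin b)) := by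
      intro κ a
      rw [hσ, ← hF]
      rfl
    have h6 := h5 σ (by
      intro κ x hx h
      refine hE κ (j x) (mem_map_of_mem _ hx) ?_
      rw [hj1, hj2, ← hfσ, ← hfσ, h])
    have h7 : σ (ε ⟨u, hu⟩) = ε ⟨u, hu⟩ := by rw [h6]; rfl
    rw [hσ, Equiv.symm_apply_apply] at h7
    exact congrArg Subtype.val (ε.injective h7)

/-- **[MD-SYS]** -/
theorem sysStmt : SysStmt := by
  classical
  intro b m e cl hm he hcl
  have hk : ∀ i : Fin m, ∃ k0 k1 : Fin m, k0 ≠ i ∧ k1 ≠ i ∧ k0 ≠ k1 := by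
    intro i
    have h1 : 1 < (univ.erase i).card := by
      rw [card_erase_of_mem (mem_univ i), card_univ, Fintype.card_fin]
      omega
    obtain ⟨k0, h0, k1, h2, h3⟩ := one_lt_card.1 h1
    exact ⟨k0, k1, ne_of_mem_erase h0, ne_of_mem_erase h2, h3⟩
  choose k0 k1 hk0 hk1 hk01 using hk
  let P := Nat.sqrt (4 * (e + m))
  have hP : P ^ 2 ≤ 4 * (e + m) := Nat.sqrt_le' _
  have hPP : ∀ i, ∀ Q : ℕ, Q ^ 2 ≤ 4 * (cls cl i).card → Q ≤ P := by
    intro i Q hQ
    rw [Nat.le_sqrt']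
    have := (hcl i).2
    omega
  choose f E h1 h2 h3 h4 using fun i => testsOn (cls cl i) P (he.trans (hcl i).1) (hPP i)
  have hmem : ∀ u i, u ∈ cls cl i ↔ cl u = i := by
    intro u i
    simp [cls]
  let y : Fin b → Fin m → ℕ := fun u k =>
    if k = k1 (cl u) then f (cl u) 1 u else f (cl u) 0 u
  have hy1 : ∀ u i, cl u = i → y u (k1 i) = f i 1 u := by
    intro u i hu
    subst hu
    simp [y]
  have hy0 : ∀ u i k, cl u = i → k ≠ k1 i → y u k = f i 0 u := by
    intro u i k hu hk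
    subst hu
    simp [y, hk]
  let T : Finset (Tst b m) := univ.filter fun t =>
    (t.2.1 = k0 t.1 ∧ (t.2.2.1, t.2.2.2) ∈ E t.1 0) ∨
      (t.2.1 = k1 t.1 ∧ (t.2.2.1, t.2.2.2) ∈ E t.1 1)
  have hT : ∀ t, t ∈ T ↔ (t.2.1 = k0 t.1 ∧ (t.2.2.1, t.2.2.2) ∈ E t.1 0) ∨
      (t.2.1 = k1 t.1 ∧ (t.2.2.1, t.2.2.2) ∈ E t.1 1) := by
    intro t
    simp [T]
  have hTcl : ∀ t ∈ T, cl t.2.2.1 = t.1 ∧ cl t.2.2.2 = t.1 := by
    intro t ht
    rcases (hT t).1 ht with ⟨_, h⟩ | ⟨_, h⟩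
    · have := h1 _ _ _ h
      exact ⟨(hmem _ _).1 this.1, (hmem _ _).1 this.2.1⟩
    · have := h1 _ _ _ h
      exact ⟨(hmem _ _).1 this.1, (hmem _ _).1 this.2.1⟩
  have hdeg : ∀ u, (T.filter fun t => t.2.2.1 = u ∨ t.2.2.2 = u).card ≤ 8 * P := by
    intro u
    have hsub : (T.filter fun t => t.2.2.1 = u ∨ t.2.2.2 = u) ⊆
        (((E (cl u) 0).filter fun x => x.1 = u ∨ x.2 = u).image
          fun x => ((cl u, k0 (cl u), x.1, x.2) : Tst b m)) ∪
        (((E (cl u) 1).filter fun x => x.1 = u ∨ x.2 = u).image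
          fun x => ((cl u, k1 (cl u), x.1, x.2) : Tst b m)) := by
      intro t ht
      rw [mem_filter] at ht
      obtain ⟨ht, hu⟩ := ht
      have hcu : cl u = t.1 := by
        rcases hu with hu | hu
        · rw [← hu]
          exact (hTcl t ht).1
        · rw [← hu]
          exact (hTcl t ht).2
      rw [mem_union, mem_image, mem_image, hcu]
      rcases (hT t).1 ht with ⟨h5, h6⟩ | ⟨h5, h6⟩
      · left
        refine ⟨(t.2.2.1, t.2.2.2), mem_filter.2 ⟨h6, hu⟩, ?_⟩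
        rw [← h5]
      · right
        refine ⟨(t.2.2.1, t.2.2.2), mem_filter.2 ⟨h6, hu⟩, ?_⟩
        rw [← h5]
    refine (card_le_card hsub).trans ((card_union_le _ _).trans ?_)
    have h5 := (card_image_le (s := (E (cl u) 0).filter fun x => x.1 = u ∨ x.2 = u)
      (f := fun x => ((cl u, k0 (cl u), x.1, x.2) : Tst b m))).trans (h2 (cl u) 0 u)
    have h6 := (card_image_le (s := (E (cl u) 1).filter fun x => x.1 = u ∨ x.2 = u)
      (f := fun x => ((cl u, k1 (cl u), x.1, x.2) : Tst b m))).trans (h2 (cl u) 1 u)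
    omega
  refine ⟨P, y, T, hP, ?_, hdeg, ?_, ?_, ?_⟩
  · intro t ht
    have hc := hTcl t ht
    rcases (hT t).1 ht with ⟨h5, h6⟩ | ⟨h5, h6⟩
    · have h7 := (h1 _ _ _ h6).2.2
      simp only at h7
      refine ⟨hc.1, hc.2, fun h => h7 (by rw [h]), ?_, ?_⟩
      · rw [h5]
        exact hk0 _
      · rw [h5, hy0 _ _ _ hc.1 (hk01 _), hy0 _ _ _ hc.2 (hk01 _)]
        exact h7
    · have h7 := (h1 _ _ _ h6).2.2
      simp only at h7
      refine ⟨hc.1, hc.2, fun h => h7 (by rw [h]), ?_, ?_⟩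
      · rw [h5]
        exact hk1 _
      · rw [h5, hy1 _ _ hc.1, hy1 _ _ hc.2]
        exact h7
  · have h5 : T.card = ∑ u : Fin b, (T.filter fun t => t.2.2.1 = u).card :=
      card_eq_sum_card_fiberwise fun t _ => mem_univ _
    rw [h5]
    calc ∑ u : Fin b, (T.filter fun t => t.2.2.1 = u).card ≤ ∑ _u : Fin b, 8 * P := by
          refine sum_le_sum fun u _ => le_trans (card_le_card ?_) (hdeg u)
          intro t ht
          rw [mem_filter] at ht ⊢
          exact ⟨ht.1, Or.inl ht.2⟩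
      _ = 8 * P * b := by
          rw [sum_const, card_univ, Fintype.card_fin, smul_eq_mul, mul_comm]
  · intro u k hk
    by_cases hkk : k = k1 (cl u)
    · refine le_trans (card_le_card ?_) (h3 (cl u) 1 u ((hmem _ _).2 rfl))
      intro v hv
      simp only [mem_filter, mem_univ, true_and] at hv
      rw [mem_filter, hmem]
      refine ⟨hv.1, ?_⟩
      have h6 := hv.2
      rw [hkk, hy1 _ _ hv.1, hy1 _ _ rfl] at h6
      exact h6
    · refine le_trans (card_le_card ?_) (h3 (cl u) 0 u ((hmem _ _).2 rfl))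
      intro v hv
      simp only [mem_filter, mem_univ, true_and] at hv
      rw [mem_filter, hmem]
      refine ⟨hv.1, ?_⟩
      have h6 := hv.2
      rw [hy0 _ _ _ hv.1 hkk, hy0 _ _ _ rfl hkk] at h6
      exact h6
  · intro ρ hρ hρT
    ext u
    congr 1
    refine h4 (cl u) ρ ?_ ?_ u ((hmem _ _).2 rfl)
    · intro v
      rw [hmem, hmem, hρ]
    · intro κ x hx
      have hx' := h1 _ _ _ hx
      rw [hmem, hmem] at hx'
      have hκ : κ = 0 ∨ κ = 1 := by
        fin_cases κ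
        · exact Or.inl rfl
        · exact Or.inr rfl
      rcases hκ with rfl | rfl
      · have h5 := hρT (cl u, k0 (cl u), x.1, x.2) ((hT _).2 (Or.inl ⟨rfl, hx⟩))
        simp only at h5
        rw [hy0 _ (cl u) _ (by rw [hρ]; exact hx'.1) (hk01 _),
          hy0 _ (cl u) _ (by rw [hρ]; exact hx'.2.1) (hk01 _)] at h5
        exact h5
      · have h5 := hρT (cl u, k1 (cl u), x.1, x.2) ((hT _).2 (Or.inr ⟨rfl, hx⟩))
        simp only at h5
        rw [hy1 _ (cl u) (by rw [hρ]; exact hx'.1),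
          hy1 _ (cl u) (by rw [hρ]; exact hx'.2.1)] at h5
        exact h5

end Vale.Agent.P181.MD.H91
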