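import Vale.Agent.P181.MD.Spec
import Vale.Agent.P181.MD.H91.Tests

/-!
# P181, MD: [MD-TEST]
-/

set_option autoImplicit false

namespace Vale.Agent.P181.MD.H91

open Finset

/-- **[MD-TEST]** -/
theorem testStmt : TestStmt := by
  intro s hs
  obtain ⟨P, f, E, h1, h2, h3, h4, h5⟩ := testsF s hs
  exact ⟨P, f, E, h1, h2, h3, h4, h5⟩

end Vale.Agent.P181.MD.H91
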